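import Vale.Agent.P090.Main

/-!
A uniformly discrete metric space whose Lipschitz-free space fails the bounded
approximation property.
-/

namespace Vale.Agent.Results.P090.UniformlyDiscreteNoBAP

open Vale.Agent.P090

theorem result :
    ∃ (M : Type) (_ : MetricSpace M) (o : M),
      (∃ δ : ℝ, 0 < δ ∧ ∀ x y : M, x ≠ y → δ ≤ dist x y) ∧ ¬HasBAP (FreeSpace M o) :=
  exists_uniformlyDiscrete_not_bap

end Vale.Agent.Results.P090.UniformlyDiscreteNoBAP
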